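import Mathlib

/-!
# Factorisation of a convergent power series: the zeros in a disc are those of a polynomial
-/

open Set Metric Filter Topology PowerSeries

namespace Vale.Agent.P264Z.Shoot

/-- Power series whose coefficients are summable against the weight `|ρ| ^ j`. -/
def W (R : Type*) [NormedCommRing R] (ρ : ℝ) : Subring (PowerSeries R) where
  carrier := {f | Summable fun j => ‖coeff j f‖ * |ρ| ^ j}
  mul_mem' := by
    intro f g hf hg
    simp only [mem_ofPred_eq] at hf hg ⊢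
    have h := summable_sum_mul_antidiagonal_of_summable_mul
      (Summable.mul_of_nonneg hf hg (fun _ => by positivity) fun _ => by positivity)
    refine h.of_nonneg_of_le (fun _ => by positivity) fun n => ?_
    rw [coeff_mul]
    refine (mul_le_mul_of_nonneg_right (norm_sum_le _ _) (by positivity)).trans ?_
    rw [Finset.sum_mul]
    refine Finset.sum_le_sum fun kl hkl => ?_
    have hn : kl.1 + kl.2 = n := by simpa using hkl
    rw [← hn, pow_add]
    have := norm_mul_le (coeff kl.1 f) (coeff kl.2 g)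
    calc _ ≤ (‖coeff kl.1 f‖ * ‖coeff kl.2 g‖) * (|ρ| ^ kl.1 * |ρ| ^ kl.2) := by gcongr
      _ = _ := by ring
  one_mem' := by
    refine summable_of_ne_finset_zero (s := {0}) fun j hj => ?_
    rw [coeff_one, if_neg (by simpa using hj)]; simp
  add_mem' := by
    intro f g hf hg
    simp only [mem_ofPred_eq] at hf hg ⊢
    refine (hf.add hg).of_nonneg_of_le (fun _ => by positivity) fun n => ?_
    rw [map_add, ← add_mul]
    gcongr
    exact norm_add_le _ _
  zero_mem' := by simp [summable_zero]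
  neg_mem' := by
    intro f hf
    simpa using hf

section

variable {R : Type*} [NormedCommRing R]

theorem mem_W {ρ : ℝ} (hρ : 0 ≤ ρ) {f : PowerSeries R} :
    f ∈ W R ρ ↔ Summable fun j => ‖coeff j f‖ * ρ ^ j := by
  change (Summable fun j => ‖coeff j f‖ * |ρ| ^ j) ↔ _
  rw [abs_of_nonneg hρ]

theorem W_mono {ρ σ : ℝ} (hρ : 0 ≤ ρ) (h : ρ ≤ σ) {f : PowerSeries R} (hf : f ∈ W R σ) :
    f ∈ W R ρ := by
  rw [mem_W hρ]
  rw [mem_W (hρ.trans h)] at hf
  refine hf.of_nonneg_of_le (fun _ => by positivity) fun n => ?_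
  gcongr

theorem X_mem_W (ρ : ℝ) : (X : PowerSeries R) ∈ W R ρ := by
  refine summable_of_ne_finset_zero (s := {1}) fun j hj => ?_
  rw [coeff_X, if_neg (by simpa using hj)]; simp

theorem poly_mem_W (ρ : ℝ) (p : Polynomial R) : (p : PowerSeries R) ∈ W R ρ := by
  refine summable_of_ne_finset_zero (s := p.support) fun j hj => ?_
  rw [Polynomial.coeff_coe, Polynomial.notMem_support_iff.1 hj]; simp

end

/-- The sum of a complex power series. -/
noncomputable def ev (f : PowerSeries ℂ) (z : ℂ) : ℂ := ∑' j, coeff j f * z ^ j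

theorem summable_ev {ρ : ℝ} (hρ : 0 ≤ ρ) {f : PowerSeries ℂ} (hf : f ∈ W ℂ ρ) {z : ℂ}
    (hz : ‖z‖ ≤ ρ) : Summable fun j => ‖coeff j f * z ^ j‖ := by
  rw [mem_W hρ] at hf
  refine hf.of_nonneg_of_le (fun _ => norm_nonneg _) fun n => ?_
  rw [norm_mul, norm_pow]
  gcongr

theorem ev_mul {ρ : ℝ} (hρ : 0 ≤ ρ) {f g : PowerSeries ℂ} (hf : f ∈ W ℂ ρ) (hg : g ∈ W ℂ ρ)
    {z : ℂ} (hz : ‖z‖ ≤ ρ) : ev (f * g) z = ev f z * ev g z := by
  unfold ev
  rw [tsum_mul_tsum_eq_tsum_sum_antidiagonal_of_summable_norm (summable_ev hρ hf hz)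
    (summable_ev hρ hg hz)]
  refine tsum_congr fun n => ?_
  rw [coeff_mul, Finset.sum_mul]
  refine Finset.sum_congr rfl fun kl hkl => ?_
  have hn : kl.1 + kl.2 = n := by simpa using hkl
  rw [← hn, pow_add]; ring

theorem ev_poly (p : Polynomial ℂ) (z : ℂ) : ev (p : PowerSeries ℂ) z = p.eval z := by
  unfold ev
  rw [tsum_eq_sum (s := p.support), Polynomial.eval_eq_sum, Polynomial.sum_def]
  · simp
  · intro j hj
    rw [Polynomial.coeff_coe, Polynomial.notMem_support_iff.1 hj]; simp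

theorem ev_differentiableOn {ρ : ℝ} (hρ : 0 ≤ ρ) {f : PowerSeries ℂ} (hf : f ∈ W ℂ ρ) :
    DifferentiableOn ℂ (ev f) (ball 0 ρ) := by
  refine Complex.differentiableOn_tsum_of_summable_norm ((mem_W hρ).1 hf)
    (fun i => by fun_prop) isOpen_ball fun i w hw => ?_
  rw [norm_mul, norm_pow]
  have : ‖w‖ ≤ ρ := by simpa using (mem_ball_zero_iff.1 hw).le
  gcongr

theorem ev_zero (f : PowerSeries ℂ) : ev f 0 = coeff 0 f := by
  unfold ev
  rw [tsum_eq_single 0]
  · simp
  · intro j hj; simp [hj]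

theorem eq_of_ev_eq {ρ : ℝ} (hρ : 0 < ρ) {f g : PowerSeries ℂ} (hf : f ∈ W ℂ ρ)
    (hg : g ∈ W ℂ ρ) (h : ∀ z : ℂ, ‖z‖ < ρ → ev f z = ev g z) : f = g := by
  have key : ∀ {f : PowerSeries ℂ}, f ∈ W ℂ ρ → HasFPowerSeriesAt (ev f)
      (FormalMultilinearSeries.ofScalars ℂ fun j => coeff j f) 0 := by
    intro f hf
    rw [hasFPowerSeriesAt_iff]
    filter_upwards [ball_mem_nhds (0 : ℂ) hρ] with z hz
    have hz' : ‖z‖ ≤ ρ := (mem_ball_zero_iff.1 hz).le
    have := (summable_ev hρ.le hf hz').of_norm.hasSum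
    simpa [FormalMultilinearSeries.coeff_ofScalars, ev, mul_comm] using this
  have h1 := (key hf).eq_formalMultilinearSeries_of_eventually (key hg) (by
    filter_upwards [ball_mem_nhds (0 : ℂ) hρ] with z hz
    exact h z (mem_ball_zero_iff.1 hz))
  ext j
  have := congrArg (fun p : FormalMultilinearSeries ℂ ℂ ℂ => p.coeff j) h1
  simpa [FormalMultilinearSeries.coeff_ofScalars] using this

theorem exists_ev_eq {ρ σ : ℝ} (hρ : 0 < ρ) (hρσ : ρ < σ) {g : ℂ → ℂ}
    (hg : DifferentiableOn ℂ g (closedBall 0 σ)) :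
    ∃ f ∈ W ℂ ρ, ∀ z : ℂ, ‖z‖ < ρ → ev f z = g z := by
  lift σ to NNReal using (hρ.trans hρσ).le
  lift ρ to NNReal using hρ.le
  have hσ : 0 < σ := by exact_mod_cast hρ.trans hρσ
  have h := hg.hasFPowerSeriesOnBall hσ
  set p := cauchyPowerSeries g 0 σ
  refine ⟨PowerSeries.mk fun j => p.coeff j, ?_, fun z hz => ?_⟩
  · refine (mem_W (by positivity)).2 ?_
    have h1 : (ρ : ENNReal) < p.radius := lt_of_lt_of_le (by exact_mod_cast hρσ) h.r_le
    simpa [FormalMultilinearSeries.norm_apply_eq_norm_coef] using p.summable_norm_mul_pow h1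
  · have hz' : z ∈ Metric.eball (0 : ℂ) σ := by
      rw [Metric.eball_coe, mem_ball_zero_iff]
      exact hz.trans hρσ
    have h2 := h.hasSum hz'
    simp only [FormalMultilinearSeries.apply_eq_pow_smul_coeff, zero_add, smul_eq_mul] at h2
    unfold ev
    simp only [coeff_mk]
    rw [← h2.tsum_eq]
    exact tsum_congr fun j => mul_comm _ _

theorem pow_eq_zero_iff_ne_zero_aux {z : ℂ} {n : ℕ} (h : z ^ n = 0) : z = 0 :=
  pow_eq_zero_iff'.1 h |>.1

theorem extract_zeros {σ τ : ℝ} (hτσ : τ ≤ σ) (s : Finset ℂ) :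
    ∀ f : ℂ → ℂ, AnalyticOnNhd ℂ f (closedBall 0 σ) →
      (∀ z ∈ closedBall (0 : ℂ) σ, f z = 0 → z ∈ s) → (∀ z ∈ s, ‖z‖ < τ) →
      ∃ (p : Polynomial ℂ) (g : ℂ → ℂ), p.Monic ∧ (∀ z, p.eval z = 0 → ‖z‖ < τ) ∧
        AnalyticOnNhd ℂ g (closedBall 0 σ) ∧ (∀ z ∈ closedBall (0 : ℂ) σ, g z ≠ 0) ∧
        ∀ z ∈ closedBall (0 : ℂ) σ, f z = p.eval z * g z := by
  classical
  induction s using Finset.induction_on with
  | empty =>
    intro f hf h0 _
    exact ⟨1, f, Polynomial.monic_one, by simp, hf, fun z hz h => by simpa using h0 z hz h,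
      by simp⟩
  | insert a s has ih =>
    intro f hf h0 hs
    have haτ : ‖a‖ < τ := hs a (Finset.mem_insert_self _ _)
    have haσ : a ∈ ball (0 : ℂ) σ := mem_ball_zero_iff.2 (haτ.trans_le hτσ)
    have haU : a ∈ closedBall (0 : ℂ) σ := ball_subset_closedBall haσ
    have hne : ¬ ∀ᶠ z in 𝓝 a, f z = 0 := by
      intro h
      have h1 : ∀ᶠ z in 𝓝 a, z ∈ (↑(insert a s) : Set ℂ) := by
        filter_upwards [h, isOpen_ball.mem_nhds haσ] with z hz hz'
        exact h0 z (ball_subset_closedBall hz') hz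
      exact (infinite_of_mem_nhds a h1) (Finset.finite_toSet _)
    obtain ⟨n, g₀, hg₀, hg₀a, hfg⟩ := (hf a haU).exists_eventuallyEq_pow_smul_nonzero_iff.2 hne
    let f₁ : ℂ → ℂ := fun z => if z = a then g₀ a else f z / (z - a) ^ n
    have hf₁a : f₁ =ᶠ[𝓝 a] g₀ := by
      filter_upwards [hfg] with z hz
      by_cases h : z = a
      · simp [f₁, h]
      · simp only [f₁, if_neg h, hz, smul_eq_mul]
        have : (z - a) ^ n ≠ 0 := pow_ne_zero _ (sub_ne_zero.2 h)
        field_simp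
    have hmul : ∀ z, f z = (z - a) ^ n * f₁ z := by
      intro z
      by_cases h : z = a
      · have := hfg.self_of_nhds
        simp only [f₁, h, if_true]
        simpa using this
      · simp only [f₁, if_neg h]
        have : (z - a) ^ n ≠ 0 := pow_ne_zero _ (sub_ne_zero.2 h)
        field_simp
    have hf₁ : AnalyticOnNhd ℂ f₁ (closedBall 0 σ) := by
      intro z hz
      by_cases h : z = a
      · rw [h]; exact hg₀.congr hf₁a.symm
      · have h1 : AnalyticAt ℂ (fun w => f w / (w - a) ^ n) z :=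
          (hf z hz).div (by fun_prop) (pow_ne_zero _ (sub_ne_zero.2 h))
        refine h1.congr ?_
        filter_upwards [isOpen_ne.mem_nhds h] with w hw
        simp only [f₁, if_neg hw]
    obtain ⟨p, g, hp, hroot, hg, hg0, hpg⟩ := ih f₁ hf₁ (fun z hz h => by
      have h1 : f z = 0 := by rw [hmul z, h, mul_zero]
      rcases Finset.mem_insert.1 (h0 z hz h1) with h2 | h2
      · exfalso
        rw [h2] at h
        simp only [f₁, if_true] at h
        exact hg₀a h
      · exact h2) (fun z hz => hs z (Finset.mem_insert_of_mem hz))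
    refine ⟨(Polynomial.X - Polynomial.C a) ^ n * p, g,
      ((Polynomial.monic_X_sub_C a).pow n).mul hp, fun z hz => ?_, hg, hg0, fun z hz => ?_⟩
    · simp only [Polynomial.eval_mul, Polynomial.eval_pow, Polynomial.eval_sub, Polynomial.eval_X,
        Polynomial.eval_C, mul_eq_zero] at hz
      rcases hz with h | h
      · rw [sub_eq_zero.1 (pow_eq_zero_iff_ne_zero_aux h)]
        exact haτ
      · exact hroot z h
    · rw [hmul z, hpg z hz]
      simp [mul_assoc]

theorem map_mem_W {ρ : ℝ} {f : PowerSeries ℝ} :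
    PowerSeries.map (algebraMap ℝ ℂ) f ∈ W ℂ ρ ↔ f ∈ W ℝ ρ := by
  change (Summable fun j => ‖coeff j (PowerSeries.map (algebraMap ℝ ℂ) f)‖ * |ρ| ^ j) ↔
    Summable fun j => ‖coeff j f‖ * |ρ| ^ j
  simp

/-- If `d u = p` over `ℂ` with `d`, `p` real and `d(0) ≠ 0`, then `u` is real. -/
theorem exists_real_quot {ρ : ℝ} {d p : PowerSeries ℝ} (hd : constantCoeff d ≠ 0)
    {u : PowerSeries ℂ} (hu : u ∈ W ℂ ρ)
    (h : PowerSeries.map (algebraMap ℝ ℂ) d * u = PowerSeries.map (algebraMap ℝ ℂ) p) :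
    ∃ u' ∈ W ℝ ρ, d * u' = p := by
  have h1 : d * d⁻¹ = 1 := PowerSeries.mul_inv_cancel d hd
  refine ⟨d⁻¹ * p, ?_, by rw [← mul_assoc, h1, one_mul]⟩
  rw [← map_mem_W]
  have h2 : PowerSeries.map (algebraMap ℝ ℂ) (d⁻¹ * p) = u := by
    rw [map_mul, ← h, ← mul_assoc, ← map_mul, mul_comm d⁻¹, h1, map_one, one_mul]
  rwa [h2]

/-- A finite set of reals misses a closed subinterval of any interval. -/
theorem exists_gap (Z : Set ℝ) (hZ : Z.Finite) {a b : ℝ} (hab : a < b) :
    ∃ x y, a < x ∧ x < y ∧ y < b ∧ ∀ z ∈ Z, z < x ∨ y < z := by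
  obtain ⟨c, hc, hcZ⟩ : ∃ c ∈ Ioo a b, c ∉ Z := by
    by_contra h
    push Not at h
    exact (Ioo_infinite hab) (hZ.subset h)
  have h1 : Zᶜ ∩ Ioo a b ∈ 𝓝 c :=
    inter_mem (hZ.isClosed.isOpen_compl.mem_nhds hcZ) (isOpen_Ioo.mem_nhds hc)
  obtain ⟨ε, hε, h2⟩ := Metric.nhds_basis_closedBall.mem_iff.1 h1
  rw [Real.closedBall_eq_Icc] at h2
  have h3 := h2 (left_mem_Icc.2 (by linarith))
  have h4 := h2 (right_mem_Icc.2 (by linarith))
  refine ⟨c - ε, c + ε, h3.2.1, by linarith, h4.2.2, fun z hz => ?_⟩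
  by_contra h
  push Not at h
  exact (h2 ⟨h.1, h.2⟩).1 hz

/-- The factorisation lemma. -/
theorem factor {d : PowerSeries ℝ} {a b : ℝ} (ha : 0 < a) (hab : a < b) (hd : d ∈ W ℝ b)
    (hd0 : constantCoeff d = 1) :
    ∃ (x y : ℝ) (p : Polynomial ℝ) (u v : PowerSeries ℝ), a < x ∧ x < y ∧ y < b ∧
      u ∈ W ℝ y ∧ d * u = p ∧ v ∈ W ℝ x⁻¹ ∧
      (Polynomial.reflect p.natDegree p : Polynomial ℝ) * v = (1 : PowerSeries ℝ) := by
  classical
  set dC := PowerSeries.map (algebraMap ℝ ℂ) d with hdC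
  have hdC' : dC ∈ W ℂ b := map_mem_W.2 hd
  have hb : 0 < b := ha.trans hab
  set b' := (a + b) / 2 with hb'
  have hab' : a < b' := by rw [hb']; linarith
  have hb'b : b' < b := by rw [hb']; linarith
  have han : AnalyticOnNhd ℂ (ev dC) (ball 0 b) :=
    (ev_differentiableOn hb.le hdC').analyticOnNhd isOpen_ball
  have han' : AnalyticOnNhd ℂ (ev dC) (closedBall 0 b') := han.mono (closedBall_subset_ball hb'b)
  have h00 : ev dC 0 = 1 := by
    rw [ev_zero, hdC, coeff_map, coeff_zero_eq_constantCoeff_apply, hd0, map_one]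
  have hfin : {z ∈ closedBall (0 : ℂ) b' | ev dC z = 0}.Finite := by
    rcases han'.eqOn_zero_or_eventually_ne_zero_of_preconnected
      (convex_closedBall _ _).isPreconnected with h | h
    · have := h (mem_closedBall_self (ha.trans hab').le)
      rw [h00] at this
      simp at this
    · refine ((isCompact_closedBall (0 : ℂ) b').finite_sdiff_of_mem_codiscreteWithin h).subset ?_
      intro z hz
      exact ⟨hz.1, by simpa using hz.2⟩
  obtain ⟨x₀, y₀, hx₀, hxy₀, hy₀, hgap⟩ := exists_gap _ (hfin.image fun z => ‖z‖) hab'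
  set x := (2 * x₀ + y₀) / 3 with hx
  set y := (x₀ + 2 * y₀) / 3 with hy
  have hx₀x : x₀ < x := by rw [hx]; linarith
  have hxy : x < y := by rw [hx, hy]; linarith
  have hyy₀ : y < y₀ := by rw [hy]; linarith
  have hx₀0 : 0 < x₀ := ha.trans hx₀
  have hx0 : 0 < x := hx₀0.trans hx₀x
  have hy0 : 0 < y := hx0.trans hxy
  obtain ⟨p₀, g, hp₀, hroot, hg, hg0, hpg⟩ := extract_zeros (σ := y₀) (τ := x₀) hxy₀.le
    (hfin.toFinset.filter fun z => ‖z‖ < x₀) (ev dC)
    (han'.mono (closedBall_subset_closedBall hy₀.le)) (fun z hz h => by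
      have hz' : z ∈ closedBall (0 : ℂ) b' := closedBall_subset_closedBall hy₀.le hz
      simp only [Finset.mem_filter, Finite.mem_toFinset, mem_ofPred_eq]
      refine ⟨⟨hz', h⟩, ?_⟩
      rcases hgap ‖z‖ ⟨z, ⟨hz', h⟩, rfl⟩ with h1 | h1
      · exact h1
      · exact absurd (mem_closedBall_zero_iff.1 hz) (not_le.2 h1))
    (fun z hz => (Finset.mem_filter.1 hz).2)
  -- the real polynomial
  set pc : Polynomial ℂ := p₀.map (starRingEnd ℂ) with hpc
  have hpcm : pc.Monic := hp₀.map _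
  have hlift : p₀ * pc ∈ Polynomial.lifts (algebraMap ℝ ℂ) := by
    rw [Polynomial.lifts_iff_coeff_lifts]
    intro n
    have h1 : (p₀ * pc).map (starRingEnd ℂ) = p₀ * pc := by
      rw [Polynomial.map_mul, hpc, Polynomial.map_map, mul_comm]
      congr 1
      have : (starRingEnd ℂ).comp (starRingEnd ℂ) = RingHom.id ℂ := by ext z; simp
      rw [this, Polynomial.map_id]
    have h2 := congrArg (fun q => q.coeff n) h1
    simp only [Polynomial.coeff_map] at h2
    obtain ⟨r, hr⟩ := Complex.conj_eq_iff_real.1 h2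
    exact ⟨r, hr.symm⟩
  obtain ⟨p, hp, hdeg, hpm⟩ := Polynomial.lifts_and_natDegree_eq_and_monic hlift (hp₀.mul hpcm)
  have hproot : ∀ z : ℂ, (p.map (algebraMap ℝ ℂ)).eval z = 0 → ‖z‖ < x₀ := by
    intro z hz
    rw [hp, Polynomial.eval_mul, mul_eq_zero] at hz
    rcases hz with h | h
    · exact hroot z h
    · have h1 : p₀.eval (starRingEnd ℂ z) = 0 := by
        have h2 : starRingEnd ℂ (p₀.eval (starRingEnd ℂ z)) = 0 := by
          rw [← Polynomial.eval₂_at_apply, ← Polynomial.eval_map, ← hpc]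
          simpa using h
        simpa using h2
      simpa using hroot _ h1
  -- the series `u`
  obtain ⟨uC, huC, hu⟩ := exists_ev_eq (g := fun z => pc.eval z / g z) hy0 hyy₀
    (fun z hz => (pc.differentiableAt.div (hg z hz).differentiableAt
      (hg0 z hz)).differentiableWithinAt)
  have hdu : dC * uC = PowerSeries.map (algebraMap ℝ ℂ) (p : PowerSeries ℝ) := by
    have hdy : dC ∈ W ℂ y := W_mono hy0.le (by linarith) hdC'
    rw [← Polynomial.polynomial_map_coe]
    refine eq_of_ev_eq hy0 (mul_mem hdy huC) (poly_mem_W _ _) fun z hz => ?_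
    have hz' : z ∈ closedBall (0 : ℂ) y₀ := mem_closedBall_zero_iff.2 (by linarith)
    rw [ev_mul hy0.le hdy huC hz.le, hu z hz, hpg z hz', ev_poly, hp, Polynomial.eval_mul]
    have := hg0 z hz'
    field_simp
  obtain ⟨u, huW, hdu'⟩ := exists_real_quot (by rw [hd0]; exact one_ne_zero) huC hdu
  -- the series `v`
  set pr : Polynomial ℝ := Polynomial.reflect p.natDegree p with hpr
  have hpr0 : pr.coeff 0 = 1 := by
    rw [hpr, Polynomial.coeff_reflect, Polynomial.revAt_zero]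
    exact hpm
  have hprne : ∀ w ∈ closedBall (0 : ℂ) x₀⁻¹, (pr.map (algebraMap ℝ ℂ)).eval w ≠ 0 := by
    intro w hw h
    by_cases hw0 : w = 0
    · rw [hw0, ← Polynomial.coeff_zero_eq_eval_zero, Polynomial.coeff_map, hpr0] at h
      simp at h
    · let : Invertible w⁻¹ := invertibleOfNonzero (inv_ne_zero hw0)
      have h1 := Polynomial.eval₂_reflect_eq_zero_iff (algebraMap ℝ ℂ) w⁻¹ p.natDegree p le_rfl
      rw [invOf_eq_inv, inv_inv, ← hpr, ← Polynomial.eval_map, ← Polynomial.eval_map] at h1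
      have h2 := hproot _ (h1.1 h)
      rw [norm_inv] at h2
      have h3 : ‖w‖ ≤ x₀⁻¹ := mem_closedBall_zero_iff.1 hw
      have h4 : 0 < ‖w‖ := norm_pos_iff.2 hw0
      have h5 := inv_anti₀ h4 h3
      rw [inv_inv] at h5
      linarith
  have hxinv : x⁻¹ < x₀⁻¹ := inv_strictAnti₀ hx₀0 hx₀x
  obtain ⟨vC, hvC, hv⟩ := exists_ev_eq (g := fun z => ((pr.map (algebraMap ℝ ℂ)).eval z)⁻¹)
    (inv_pos.2 hx0) hxinv
    (fun z hz => ((pr.map (algebraMap ℝ ℂ)).differentiableAt.inv
      (hprne z hz)).differentiableWithinAt)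
  have hpv : PowerSeries.map (algebraMap ℝ ℂ) (pr : PowerSeries ℝ) * vC
      = PowerSeries.map (algebraMap ℝ ℂ) 1 := by
    rw [← Polynomial.polynomial_map_coe, map_one]
    refine eq_of_ev_eq (inv_pos.2 hx0) (mul_mem (poly_mem_W _ _) hvC) (one_mem _) fun z hz => ?_
    have hz' : z ∈ closedBall (0 : ℂ) x₀⁻¹ := mem_closedBall_zero_iff.2 (by linarith)
    rw [ev_mul (inv_pos.2 hx0).le (poly_mem_W _ _) hvC hz.le, hv z hz, ev_poly,
      mul_inv_cancel₀ (hprne z hz'), ← Polynomial.coe_one, ev_poly, Polynomial.eval_one]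
  obtain ⟨v, hvW, hpv'⟩ := exists_real_quot (by
    rw [← coeff_zero_eq_constantCoeff_apply, Polynomial.coeff_coe, hpr0]; exact one_ne_zero) hvC hpv
  exact ⟨x, y, p, u, v, by linarith, hxy, by linarith, huW, hdu', hvW, hpv'⟩

end Vale.Agent.P264Z.Shoot
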